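import Vale.Agent.P050.R2.H300.Defs

set_option linter.all false

open MeasureTheory Finset

namespace Vale.Agent.P050.Dense

open Vale.Agent.P050

/-- the total gain: sum of the activities of the cycle polymers -/
noncomputable def GG2 {V : Type*} [Fintype V] [DecidableEq V] {Ω : Type*} [MeasurableSpace Ω]
    (μ : Measure Ω) (U : Sym2 Ω → ℝ) (N : V → Finset V) (B : Finset V) (ε : ℝ) : ℝ :=
  ∑ γ ∈ cnS (BG N) B (fun γ => CycP N γ γ.card), Real.exp (-(ε * γ.card)) * phi μ U N γ

end Vale.Agent.P050.Dense
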