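import Vale.Agent.P050.R2.H300.Defs

set_option linter.all false

/-!
Dense targets, module M8: the functions `phi`, `ZZ` form a gas.
-/

open MeasureTheory Finset

namespace Vale.Agent.P050.Dense

open Vale.Agent.P050

section M8

variable {V : Type*} [Fintype V] [DecidableEq V] {Ω : Type*} [MeasurableSpace Ω]

/-- the integrand of `Phi` -/
lemma M8.bm_integrand {U : Sym2 Ω → ℝ} {κ η : ℝ} {μ : Measure Ω} (hU : Ker μ U κ η)
    (s : Finset V) :
    BM (fun q : (V → Ω) × Ω => (∏ a ∈ s, (1 + U s(q.1 a, q.2))) - 1) := by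
  refine BM.sub (BM.finprod s fun a _ => BM.add (BM.const 1) ?_) (BM.const 1)
  exact hU.good.bm_two.comp (g := fun q : (V → Ω) × Ω => (q.1 a, q.2)) (by fun_prop)

variable (μ : Measure Ω) [IsProbabilityMeasure μ] {U : Sym2 Ω → ℝ} {κ η : ℝ}

lemma M8.bm_Phi (hU : Ker μ U κ η) (N : V → Finset V) (S : Finset V) (b : V) :
    BM (Phi μ U N S b) := by
  unfold Phi
  exact (M8.bm_integrand hU (N b \ S)).integral_right μ

lemma M8.ind_Phi (N : V → Finset V) (S : Finset V) (b v : V) (hv : v ∉ N b) :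
    Ind v (Phi μ U N S b) := by
  intro x y
  unfold Phi
  congr 1
  ext t
  congr 1
  refine prod_congr rfl fun a ha => ?_
  rw [Function.update_of_ne]
  rintro rfl
  exact hv (mem_sdiff.1 ha).1

omit [Fintype V] in
lemma M8.prod_sub_one (s : Finset V) (u : V → ℝ) {η : ℝ} (h0 : ∀ a ∈ s, -1 ≤ u a)
    (h1 : ∀ a ∈ s, u a ≤ η) (hη : 0 ≤ η) :
    |(∏ a ∈ s, (1 + u a)) - 1| ≤ (1 + η) ^ s.card * ∑ a ∈ s, |u a| := by
  induction s using Finset.induction_on with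
  | empty => simp
  | insert a s ha ih =>
    have ih' := ih (fun b hb => h0 b (mem_insert_of_mem hb)) (fun b hb => h1 b (mem_insert_of_mem hb))
    rw [prod_insert ha, sum_insert ha, card_insert_of_notMem ha]
    have e : (1 + u a) * ∏ b ∈ s, (1 + u b) - 1 = (1 + u a) * ((∏ b ∈ s, (1 + u b)) - 1) + u a := by
      ring
    rw [e]
    have ha0 := h0 a (mem_insert_self _ _)
    have ha1 := h1 a (mem_insert_self _ _)
    have hS : 0 ≤ ∑ b ∈ s, |u b| := sum_nonneg fun _ _ => abs_nonneg _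
    have hp : (1:ℝ) ≤ (1 + η) ^ s.card := one_le_pow₀ (by linarith)
    have hp' : (1:ℝ) ≤ (1 + η) ^ (s.card + 1) := one_le_pow₀ (by linarith)
    calc |(1 + u a) * ((∏ b ∈ s, (1 + u b)) - 1) + u a|
        ≤ |(1 + u a) * ((∏ b ∈ s, (1 + u b)) - 1)| + |u a| := abs_add_le _ _
      _ = (1 + u a) * |(∏ b ∈ s, (1 + u b)) - 1| + |u a| := by
          rw [abs_mul, abs_of_nonneg (by linarith : 0 ≤ 1 + u a)]
      _ ≤ (1 + η) * ((1 + η) ^ s.card * ∑ b ∈ s, |u b|) + (1 + η) ^ (s.card + 1) * |u a| := by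
          refine add_le_add ?_ ?_
          · exact mul_le_mul (by linarith) ih' (abs_nonneg _) (by linarith)
          · have := mul_le_mul_of_nonneg_right hp' (abs_nonneg (u a))
            linarith
      _ = (1 + η) ^ (s.card + 1) * (|u a| + ∑ b ∈ s, |u b|) := by
          rw [pow_succ]; ring

omit [Fintype V] in
lemma M8.abs_Phi_le (hU : Ker μ U κ η) {N : V → Finset V} {D : ℕ} {σ : ℝ} (hn : Num D κ η σ)
    (S : Finset V) {b : V} (hb : (N b).card ≤ D) (z : V → Ω) : |Phi μ U N S b z| ≤ σ := by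
  set s := N b \ S with hs
  have hsc : s.card ≤ D := (card_le_card sdiff_subset).trans hb
  have h0 : ∀ e : Sym2 Ω, -1 ≤ U e := fun e => (abs_le.1 (hU.good.bdd e)).1
  have hint : ∀ a : V, Integrable (fun y => |U s(z a, y)|) μ := by
    intro a
    have h1 : BM (fun y : Ω => U s(z a, y)) :=
      hU.good.bm_two.comp (g := fun y : Ω => (z a, y)) (by fun_prop)
    exact h1.abs.integrable μ
  have hint2 : Integrable (fun y => (∏ a ∈ s, (1 + U s(z a, y))) - 1) μ := by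
    have h1 : BM (fun y : Ω => (∏ a ∈ s, (1 + U s(z a, y))) - 1) := by
      refine BM.sub (BM.finprod s fun a _ => BM.add (BM.const 1) ?_) (BM.const 1)
      exact hU.good.bm_two.comp (g := fun y : Ω => (z a, y)) (by fun_prop)
    exact h1.integrable μ
  have hpow : (1 + η) ^ s.card ≤ 2 :=
    (pow_le_pow_right₀ (by linarith [hU.η0]) hsc).trans hn.η2
  calc |Phi μ U N S b z| = |∫ y, ((∏ a ∈ s, (1 + U s(z a, y))) - 1) ∂μ| := rfl
    _ ≤ ∫ y, |(∏ a ∈ s, (1 + U s(z a, y))) - 1| ∂μ := abs_integral_le_integral_abs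
    _ ≤ ∫ y, (1 + η) ^ s.card * ∑ a ∈ s, |U s(z a, y)| ∂μ := by
        refine integral_mono hint2.abs ?_ fun y => ?_
        · exact (integrable_finset_sum s fun a _ => hint a).const_mul _
        · exact M8.prod_sub_one s _ (fun a _ => h0 _) (fun a _ => hU.top _) hU.η0
    _ = (1 + η) ^ s.card * ∑ a ∈ s, ∫ y, |U s(z a, y)| ∂μ := by
        rw [integral_const_mul, integral_finset_sum s fun a _ => hint a]
    _ ≤ 2 * ∑ a ∈ s, κ := by
        refine mul_le_mul hpow (sum_le_sum fun a _ => hU.l1 (z a)) ?_ (by norm_num)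
        exact sum_nonneg fun a _ => integral_nonneg fun y => abs_nonneg _
    _ ≤ 2 * D * κ := by
        rw [sum_const, nsmul_eq_mul]
        have : (s.card : ℝ) ≤ D := by exact_mod_cast hsc
        nlinarith [hU.κ0]
    _ ≤ σ := hn.σκ

theorem ZZg_eq (N : V → Finset V) (hU : Ker μ U κ η) {g : Ω → ℝ} (hgm : BM g) (a : V)
    (Λ : Finset V) : ZZg μ U N g a Λ = ∑ β ∈ Λ.powerset, phig μ U N g a β := by
  unfold ZZg phig
  rw [← integral_finset_sum]
  · congr 1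
    ext z
    rw [Finset.prod_one_add, mul_sum]
  · intro β _
    exact ((hgm.comp (measurable_pi_apply a)).mul
      (BM.finprod β fun b _ => M8.bm_Phi μ hU N ∅ b)).integrable _

theorem ZZ_eq (N : V → Finset V) (hU : Ker μ U κ η) (Λ : Finset V) :
    ZZ μ U N Λ = ∑ β ∈ Λ.powerset, phi μ U N β := by
  unfold ZZ phi
  rw [← integral_finset_sum]
  · congr 1
    ext z
    rw [Finset.prod_one_add]
  · intro β _
    exact (BM.finprod β fun b _ => M8.bm_Phi μ hU N ∅ b).integrable _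

omit [Fintype V] in
lemma M8.disj {N : V → Finset V} {γ β : Finset V} (hd : Disjoint γ β)
    (h : ∀ b ∈ γ, ∀ b' ∈ β, ¬ (BG N).Adj b b') {b b' v : V} (hb : b ∈ γ) (hb' : b' ∈ β)
    (hv : v ∈ N b) : v ∉ N b' := by
  intro hv'
  refine h b hb b' hb' ?_
  unfold BG
  rw [SimpleGraph.fromRel_adj]
  refine ⟨?_, Or.inl ⟨v, mem_inter.2 ⟨hv, hv'⟩⟩⟩
  rintro rfl
  exact (disjoint_left.1 hd hb) hb'

theorem phig_mul {N : V → Finset V} {B : Finset V} {D : ℕ} (hN : Bip N B D) (hU : Ker μ U κ η)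
    {γ β : Finset V} (hγ : γ ⊆ B) (hβ : β ⊆ B) (hd : Disjoint γ β) {g : Ω → ℝ} (hgm : BM g)
    {a : V} (haβ : ∀ b ∈ β, a ∉ N b)
    (h : ∀ b ∈ γ, ∀ b' ∈ β, ¬ (BG N).Adj b b') :
    phig μ U N g a (γ ∪ β) = phig μ U N g a γ * phi μ U N β := by
  unfold phig phi
  rw [← integral_mul_of_ind μ (insert a (γ.biUnion N))
    (fun z => g (z a) * ∏ b ∈ γ, Phi μ U N ∅ b z) (fun z => ∏ b ∈ β, Phi μ U N ∅ b z)
    ((hgm.comp (measurable_pi_apply a)).mul (BM.finprod γ fun b _ => M8.bm_Phi μ hU N ∅ b))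
    (BM.finprod β fun b _ => M8.bm_Phi μ hU N ∅ b)]
  · congr 1
    ext z
    rw [prod_union hd, mul_assoc]
  · intro v hv x y
    rw [mem_insert, not_or] at hv
    have hv2 : ∀ b ∈ γ, v ∉ N b := fun b hb hvb => hv.2 (mem_biUnion.2 ⟨b, hb, hvb⟩)
    simp only [Function.update_of_ne (Ne.symm hv.1)]
    congr 1
    exact prod_congr rfl fun b hb => M8.ind_Phi μ N ∅ b v (hv2 b hb) x y
  · intro v hv x y
    refine prod_congr rfl fun b' hb' => M8.ind_Phi μ N ∅ b' v ?_ x y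
    rcases mem_insert.1 hv with rfl | hv
    · exact haβ b' hb'
    · obtain ⟨b, hb, hvb⟩ := mem_biUnion.1 hv
      exact M8.disj hd h hb hb' hvb

theorem phi_mul {N : V → Finset V} {B : Finset V} {D : ℕ} (hN : Bip N B D) (hU : Ker μ U κ η)
    {γ β : Finset V} (hγ : γ ⊆ B) (hβ : β ⊆ B) (hd : Disjoint γ β)
    (h : ∀ b ∈ γ, ∀ b' ∈ β, ¬ (BG N).Adj b b') :
    phi μ U N (γ ∪ β) = phi μ U N γ * phi μ U N β := by
  unfold phi
  rw [← integral_mul_of_ind μ (γ.biUnion N)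
    (fun z => ∏ b ∈ γ, Phi μ U N ∅ b z) (fun z => ∏ b ∈ β, Phi μ U N ∅ b z)
    (BM.finprod γ fun b _ => M8.bm_Phi μ hU N ∅ b)
    (BM.finprod β fun b _ => M8.bm_Phi μ hU N ∅ b)]
  · congr 1
    ext z
    rw [prod_union hd]
  · intro v hv x y
    have hv2 : ∀ b ∈ γ, v ∉ N b := fun b hb hvb => hv (mem_biUnion.2 ⟨b, hb, hvb⟩)
    exact prod_congr rfl fun b hb => M8.ind_Phi μ N ∅ b v (hv2 b hb) x y
  · intro v hv x y
    refine prod_congr rfl fun b' hb' => M8.ind_Phi μ N ∅ b' v ?_ x y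
    obtain ⟨b, hb, hvb⟩ := mem_biUnion.1 hv
    exact M8.disj hd h hb hb' hvb

theorem ZZ_ratio {N : V → Finset V} {B : Finset V} {D : ℕ} (hN : Bip N B D) (hU : Ker μ U κ η)
    {σ : ℝ} (hn : Num D κ η σ) {Λ : Finset V} (hΛ : Λ ⊆ B) :
    0 < ZZ μ U N Λ ∧ ∀ b ∈ B, b ∉ Λ →
      |ZZ μ U N (insert b Λ) - ZZ μ U N Λ| ≤ σ * ZZ μ U N Λ := by
  have hσ1 : σ ≤ 1 / 8 := hn.σ1
  have hpos : ∀ b ∈ Λ, ∀ z : V → Ω, 1 - σ ≤ 1 + Phi μ U N ∅ b z := by
    intro b hb z
    have := (abs_le.1 (M8.abs_Phi_le μ hU hn ∅ (hN.dB b (hΛ hb)) z)).1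
    linarith
  have hprod : ∀ z : V → Ω, (1 - σ) ^ Λ.card ≤ ∏ b ∈ Λ, (1 + Phi μ U N ∅ b z) := by
    intro z
    rw [← prod_const]
    exact prod_le_prod (fun b _ => by linarith) fun b hb => hpos b hb z
  have hbm : BM (fun z : V → Ω => ∏ b ∈ Λ, (1 + Phi μ U N ∅ b z)) :=
    BM.finprod Λ fun b _ => BM.add (BM.const 1) (M8.bm_Phi μ hU N ∅ b)
  have hprod0 : ∀ z : V → Ω, 0 ≤ ∏ b ∈ Λ, (1 + Phi μ U N ∅ b z) := fun z =>
    le_trans (pow_nonneg (by linarith) _) (hprod z)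
  refine ⟨?_, ?_⟩
  · have h1 : (1 - σ) ^ Λ.card ≤ ZZ μ U N Λ := by
      unfold ZZ
      calc (1 - σ) ^ Λ.card = ∫ z : V → Ω, (1 - σ) ^ Λ.card ∂(piM V μ) := by simp
        _ ≤ ∫ z, ∏ b ∈ Λ, (1 + Phi μ U N ∅ b z) ∂(piM V μ) :=
            integral_mono (integrable_const _) (hbm.integrable _) hprod
    exact lt_of_lt_of_le (pow_pos (by linarith) _) h1
  · intro b hb hbΛ
    have hbP := M8.bm_Phi μ hU N ∅ b
    have e : ZZ μ U N (insert b Λ) - ZZ μ U N Λ =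
        ∫ z, Phi μ U N ∅ b z * ∏ b ∈ Λ, (1 + Phi μ U N ∅ b z) ∂(piM V μ) := by
      unfold ZZ
      rw [← integral_sub]
      · congr 1
        ext z
        rw [prod_insert hbΛ]
        ring
      · exact (BM.finprod (insert b Λ) fun b _ =>
          BM.add (BM.const 1) (M8.bm_Phi μ hU N ∅ b)).integrable _
      · exact hbm.integrable _
    rw [e]
    calc |∫ z, Phi μ U N ∅ b z * ∏ b ∈ Λ, (1 + Phi μ U N ∅ b z) ∂(piM V μ)|
        ≤ ∫ z, |Phi μ U N ∅ b z * ∏ b ∈ Λ, (1 + Phi μ U N ∅ b z)| ∂(piM V μ) :=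
          abs_integral_le_integral_abs
      _ ≤ ∫ z, σ * ∏ b ∈ Λ, (1 + Phi μ U N ∅ b z) ∂(piM V μ) := by
          refine integral_mono ((hbP.mul hbm).abs.integrable _) ?_ fun z => ?_
          · exact (hbm.integrable _).const_mul _
          · show |_| ≤ _
            rw [abs_mul, abs_of_nonneg (hprod0 z)]
            exact mul_le_mul_of_nonneg_right (M8.abs_Phi_le μ hU hn ∅ (hN.dB b hb) z) (hprod0 z)
      _ = σ * ZZ μ U N Λ := by
          unfold ZZ
          rw [integral_const_mul]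

omit [Fintype V] in
theorem BG_card {N : V → Finset V} {B : Finset V} {D : ℕ} (hN : Bip N B D) :
    ∀ b ∈ B, (nbr (BG N) B b).card ≤ D ^ 2 := by
  classical
  intro b hb
  have hsub : nbr (BG N) B b ⊆ (N b).biUnion (fun a => B.filter (fun b' => a ∈ N b')) := by
    intro b' hb'
    unfold nbr at hb'
    rw [mem_filter] at hb'
    obtain ⟨hB', hadj⟩ := hb'
    unfold BG at hadj
    rw [SimpleGraph.fromRel_adj] at hadj
    obtain ⟨-, h | h⟩ := hadj
    · obtain ⟨a, ha⟩ := h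
      rw [mem_inter] at ha
      exact mem_biUnion.2 ⟨a, ha.1, mem_filter.2 ⟨hB', ha.2⟩⟩
    · obtain ⟨a, ha⟩ := h
      rw [mem_inter] at ha
      exact mem_biUnion.2 ⟨a, ha.2, mem_filter.2 ⟨hB', ha.1⟩⟩
  calc (nbr (BG N) B b).card
      ≤ ((N b).biUnion (fun a => B.filter (fun b' => a ∈ N b'))).card := card_le_card hsub
    _ ≤ ∑ a ∈ N b, (B.filter (fun b' => a ∈ N b')).card := card_biUnion_le
    _ ≤ ∑ _a ∈ N b, D := sum_le_sum fun a _ => hN.dA a
    _ = (N b).card * D := by rw [sum_const, smul_eq_mul]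
    _ ≤ D * D := Nat.mul_le_mul_right _ (hN.dB b hb)
    _ = D ^ 2 := (sq D).symm

end M8

end Vale.Agent.P050.Dense
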