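import Vale.Agent.P050.R2.H998.GasPlan
import Vale.Agent.P050.R2.H625.CountG
import Vale.Agent.P050.R2.H15.Cyc
import Vale.Agent.P050.R2.H322.CycExtra
import Vale.Agent.P050.R2.H559.Phi
import Vale.Agent.P050.R2.H146.Cyc
import Vale.Agent.P050.R2.H234.Gas

set_option linter.all false

/-!
Dense targets, module M9a: the lower bound of the logarithm of the partition function.
-/

open MeasureTheory Finset

namespace Vale.Agent.P050.Dense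

open Vale.Agent.P050

section M9a

variable {V : Type*} [Fintype V] [DecidableEq V] {Ω : Type*} [MeasurableSpace Ω]
variable (μ : Measure Ω) [IsProbabilityMeasure μ] {U : Sym2 Ω → ℝ} {κ η : ℝ}

omit [Fintype V] in
lemma M9a.mem_cnS {G : SimpleGraph V} {B : Finset V} {P : Finset V → Prop} {γ : Finset V} :
    γ ∈ cnS G B P ↔ γ ⊆ B ∧ Cn G γ ∧ P γ := by
  simp only [cnS, mem_filter, mem_powerset]

lemma M9a.exp_half_le : Real.exp (1 / 2) ≤ 2 := by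
  have h := Real.add_one_le_exp (-(1 / 2 : ℝ))
  rw [Real.exp_neg] at h
  have h1 : (0:ℝ) < Real.exp (1 / 2) := Real.exp_pos _
  have h2 : (1 / 2 : ℝ) ≤ (Real.exp (1 / 2))⁻¹ := by linarith
  have h3 := mul_le_mul_of_nonneg_right h2 h1.le
  rw [inv_mul_cancel₀ h1.ne'] at h3
  linarith

lemma M9a.one_add_pow_le {x : ℝ} (hx : 0 ≤ x) {n : ℕ} (h : x * n ≤ 1 / 4) :
    (1 + 2 * x) ^ n ≤ 2 := by
  calc (1 + 2 * x) ^ n ≤ (Real.exp (2 * x)) ^ n := by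
        refine pow_le_pow_left₀ (by linarith) ?_ n
        have := Real.add_one_le_exp (2 * x)
        linarith
    _ = Real.exp (n * (2 * x)) := by rw [← Real.exp_nat_mul]
    _ ≤ Real.exp (1 / 2) := Real.exp_le_exp.2 (by nlinarith)
    _ ≤ 2 := M9a.exp_half_le

/-- the weight of one additional vertex -/
noncomputable def M9a.X (D : ℕ) (σ ε : ℝ) : ℝ :=
  (8 * (D:ℝ) ^ 2 * Real.exp (2 * ε)) ^ 4 * (σ * Real.exp ε)

lemma M9a.X_nonneg (D : ℕ) {σ : ℝ} (ε : ℝ) (hσ : 0 ≤ σ) : 0 ≤ M9a.X D σ ε := by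
  unfold M9a.X
  have := Real.exp_pos ε
  positivity

lemma M9a.X_mul_le {D : ℕ} (hD : 1 ≤ D) {σ : ℝ} (hσ : 0 ≤ σ)
    (hσD : σ * (10 ^ 5 * (D:ℝ) ^ 10) ≤ 1) :
    M9a.X D σ (2 * σ * ((D:ℝ) ^ 2 + 1)) * (D:ℝ) ^ 2 ≤ 1 / 4 := by
  have hD1 : (1:ℝ) ≤ D := by exact_mod_cast hD
  set ε := 2 * σ * ((D:ℝ) ^ 2 + 1) with hε
  have h2 : (1:ℝ) ≤ (D:ℝ) ^ 2 := one_le_pow₀ hD1
  have h8 : (1:ℝ) ≤ (D:ℝ) ^ 8 := one_le_pow₀ hD1
  have h10 : (D:ℝ) ^ 2 ≤ (D:ℝ) ^ 10 := pow_le_pow_right₀ hD1 (by norm_num)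
  have hs : σ * (D:ℝ) ^ 10 ≤ 1 / 10 ^ 5 := by nlinarith
  have hs2 : σ * (D:ℝ) ^ 2 ≤ 1 / 10 ^ 5 :=
    (mul_le_mul_of_nonneg_left h10 hσ).trans hs
  have hs1 : σ ≤ 1 / 10 ^ 5 := by
    have : σ * 1 ≤ σ * (D:ℝ) ^ 2 := mul_le_mul_of_nonneg_left h2 hσ
    linarith
  have hε1 : 9 * ε ≤ 1 / 2 := by
    rw [hε]
    have : 2 * σ * ((D:ℝ) ^ 2 + 1) = 2 * (σ * (D:ℝ) ^ 2) + 2 * σ := by ring
    rw [this]
    norm_num at hs2 hs1 ⊢
    linarith
  have he : Real.exp (9 * ε) ≤ 2 := (Real.exp_le_exp.2 hε1).trans M9a.exp_half_le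
  have e : M9a.X D σ ε * (D:ℝ) ^ 2 = 4096 * (σ * (D:ℝ) ^ 10) * Real.exp (9 * ε) := by
    unfold M9a.X
    have e1 : Real.exp (9 * ε) = Real.exp (2 * ε) ^ 4 * Real.exp ε := by
      rw [← Real.exp_nat_mul, ← Real.exp_add]
      congr 1
      push_cast
      ring
    rw [e1]
    ring
  rw [e]
  have hnn : 0 ≤ σ * (D:ℝ) ^ 10 := by positivity
  calc 4096 * (σ * (D:ℝ) ^ 10) * Real.exp (9 * ε) ≤ 4096 * (1 / 10 ^ 5) * 2 := by
        gcongr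
    _ ≤ 1 / 4 := by norm_num

/-- one term: the activity of a set which contains a shortest cycle `C` properly -/
lemma M9a.term_le {D : ℕ} (hD : 1 ≤ D) {σ ε c f : ℝ} (hσ : 0 ≤ σ) (hε : 0 ≤ ε) (hc : 0 ≤ c)
    {k n : ℕ} (hkn : k ≤ n) (hk4 : k ≤ 4 * (n - k))
    (hf : f ≤ (2 * (D:ℝ) ^ 2) ^ k * σ ^ (n - k) * c) :
    Real.exp (ε * n) * f ≤
      (Real.exp (-(ε * k)) * c) * ((1 / 4) ^ k * M9a.X D σ ε ^ (n - k)) := by
  have hD1 : (1:ℝ) ≤ D := by exact_mod_cast hD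
  obtain ⟨j, rfl⟩ := Nat.exists_eq_add_of_le hkn
  rw [Nat.add_sub_cancel_left] at hf hk4 ⊢
  have hb : (1:ℝ) ≤ 8 * (D:ℝ) ^ 2 * Real.exp (2 * ε) := by
    have h2 : (1:ℝ) ≤ (D:ℝ) ^ 2 := one_le_pow₀ hD1
    have h3 : (1:ℝ) ≤ Real.exp (2 * ε) := Real.one_le_exp (by linarith)
    nlinarith
  have hE : (0:ℝ) < Real.exp ε := Real.exp_pos _
  have h1 : Real.exp (ε * ((k + j : ℕ) : ℝ)) * ((2 * (D:ℝ) ^ 2) ^ k * σ ^ j * c) =
      (Real.exp (-(ε * k)) * c) * ((1 / 4) ^ k * ((8 * (D:ℝ) ^ 2 * Real.exp (2 * ε)) ^ k *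
        (σ * Real.exp ε) ^ j)) := by
    have e1 : Real.exp (ε * ((k + j : ℕ) : ℝ)) =
        Real.exp (-(ε * k)) * Real.exp (2 * ε) ^ k * Real.exp ε ^ j := by
      rw [← Real.exp_nat_mul, ← Real.exp_nat_mul, ← Real.exp_add, ← Real.exp_add]
      congr 1
      push_cast
      ring
    rw [e1, mul_pow (8 * (D:ℝ) ^ 2), mul_pow σ]
    have e2 : (1 / 4 : ℝ) ^ k * (8 * (D:ℝ) ^ 2) ^ k = (2 * (D:ℝ) ^ 2) ^ k := by
      rw [← mul_pow]
      congr 1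
      ring
    rw [← e2]
    ring
  calc Real.exp (ε * ((k + j : ℕ) : ℝ)) * f
      ≤ Real.exp (ε * ((k + j : ℕ) : ℝ)) * ((2 * (D:ℝ) ^ 2) ^ k * σ ^ j * c) :=
        mul_le_mul_of_nonneg_left hf (Real.exp_pos _).le
    _ = (Real.exp (-(ε * k)) * c) * ((1 / 4) ^ k * ((8 * (D:ℝ) ^ 2 * Real.exp (2 * ε)) ^ k *
        (σ * Real.exp ε) ^ j)) := h1
    _ ≤ (Real.exp (-(ε * k)) * c) * ((1 / 4) ^ k * ((8 * (D:ℝ) ^ 2 * Real.exp (2 * ε)) ^ (4 * j) *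
        (σ * Real.exp ε) ^ j)) := by
        have h5 := pow_le_pow_right₀ hb hk4
        have h6 : 0 ≤ (σ * Real.exp ε) ^ j := by positivity
        have h7 : 0 ≤ Real.exp (-(ε * k)) * c := mul_nonneg (Real.exp_pos _).le hc
        exact mul_le_mul_of_nonneg_left (mul_le_mul_of_nonneg_left
          (mul_le_mul_of_nonneg_right h5 h6) (by positivity)) h7
    _ = (Real.exp (-(ε * k)) * c) * ((1 / 4) ^ k * M9a.X D σ ε ^ j) := by
        unfold M9a.X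
        rw [pow_mul, ← mul_pow]

/-- the sets which are not cycles, compared with the cycles -/
lemma M9a.noncyc_le {N : V → Finset V} {B : Finset V} {D : ℕ} (hN : Bip N B D)
    (hU : Ker μ U κ η) {σ : ℝ} (hn : Num D κ η σ) (hσ : 0 < σ)
    (hσD : σ * (10 ^ 5 * (D:ℝ) ^ 10) ≤ 1) :
    ∑ γ ∈ cnS (BG N) B (fun γ => ¬ CycP N γ γ.card),
      Real.exp (2 * σ * ((D:ℝ) ^ 2 + 1) * γ.card) * |phi μ U N γ| ≤
      1 / 4 * GG μ U N B (2 * σ * ((D:ℝ) ^ 2 + 1)) := by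
  classical
  have hD := hn.hD
  set ε := 2 * σ * ((D:ℝ) ^ 2 + 1) with hε
  have hε0 : 0 ≤ ε := by positivity
  set x := M9a.X D σ ε with hx
  have hx0 : 0 ≤ x := M9a.X_nonneg D ε hσ.le
  have hxD : x * ((D ^ 2 : ℕ) : ℝ) ≤ 1 / 4 := by
    push_cast
    exact M9a.X_mul_le hD hσ.le hσD
  have hy : (1 + 2 * x) ^ (D ^ 2) ≤ 2 := M9a.one_add_pow_le hx0 hxD
  have hxy : x * (1 + 2 * x) ^ (D ^ 2) ≤ 2 * x := by nlinarith
  set wC : Finset V → ℝ := fun C => Real.exp (-(ε * C.card)) * ck μ U C.card with hwC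
  have hwC0 : ∀ C, 0 ≤ wC C := fun C => mul_nonneg (Real.exp_pos _).le (ck_nonneg μ _)
  set PC : Finset V → Finset V → Prop := fun C γ => C ⊆ γ ∧ C ≠ γ with hPC
  -- each term is at most the sum over the cycles inside
  have hterm : ∀ γ ∈ cnS (BG N) B (fun γ => ¬ CycP N γ γ.card),
      Real.exp (ε * γ.card) * |phi μ U N γ| ≤
      ∑ C ∈ cnS (BG N) B (fun γ => CycP N γ γ.card),
        if PC C γ then wC C * ((1 / 4) ^ C.card * x ^ (γ.card - C.card)) else 0 := by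
    intro γ hγ
    obtain ⟨hγB, hcn, hncyc⟩ := M9a.mem_cnS.1 hγ
    have hnn : ∀ C ∈ cnS (BG N) B (fun γ => CycP N γ γ.card),
        0 ≤ if PC C γ then wC C * ((1 / 4) ^ C.card * x ^ (γ.card - C.card)) else 0 := by
      intro C _
      split_ifs
      · have := hwC0 C
        positivity
      · exact le_rfl
    by_cases ht : Thick N γ
    · obtain ⟨k, C, hCγ, hC, hg⟩ := exists_cycP hN hγB (Thick.not_acyclic hN hγB hcn.1 ht)
      have hk2 : 2 ≤ k := hC.1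
      have hck : C.card = k := hC.2.1
      have hne : C ≠ γ := by
        rintro rfl
        apply hncyc
        rw [hck]
        exact hC
      have hCB : C ⊆ B := hCγ.trans hγB
      have hmem : C ∈ cnS (BG N) B (fun γ => CycP N γ γ.card) := by
        refine M9a.mem_cnS.2 ⟨hCB, CycP.cn hN hCB hC, ?_⟩
        show CycP N C C.card
        rw [hck]
        exact hC
      have h4 : k ≤ 4 * (γ.card - k) := by
        have := cyc_extra hN hγB hcn ht hCγ hC hg hne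
        rwa [hck] at this
      have hle : k ≤ γ.card := hck ▸ card_le_card hCγ
      have hb := phi_bound μ hN hU hn hσ hγB hcn.1 hk2 hg
      have h5 := M9a.term_le hD hσ.le hε0 (ck_nonneg μ k) hle h4 hb
      refine le_trans ?_ (single_le_sum hnn hmem)
      rw [if_pos (show PC C γ from ⟨hCγ, hne⟩)]
      show _ ≤ (Real.exp (-(ε * C.card)) * ck μ U C.card) * _
      rw [hck]
      exact h5
    · rw [phi_eq_zero μ hN hU hγB ht, abs_zero, mul_zero]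
      exact sum_nonneg hnn
  refine (sum_le_sum hterm).trans ?_
  rw [sum_comm]
  unfold GG
  rw [mul_sum]
  refine sum_le_sum fun C hC => ?_
  obtain ⟨hCB, hCcn, hCP⟩ := M9a.mem_cnS.1 hC
  have hk2 : 2 ≤ C.card := hCP.1
  have h1 : ∑ γ ∈ cnS (BG N) B (fun γ => ¬ CycP N γ γ.card),
      (if PC C γ then wC C * ((1 / 4) ^ C.card * x ^ (γ.card - C.card)) else 0) ≤
      ∑ γ ∈ cnS (BG N) B (fun γ => C ⊆ γ ∧ C ≠ γ),
        wC C * ((1 / 4) ^ C.card * x ^ (γ.card - C.card)) := by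
    rw [← sum_filter]
    refine sum_le_sum_of_subset_of_nonneg ?_ fun γ _ _ => ?_
    · intro γ hγ
      obtain ⟨hγ1, hγ2⟩ := mem_filter.1 hγ
      obtain ⟨h1, h2, -⟩ := M9a.mem_cnS.1 hγ1
      exact M9a.mem_cnS.2 ⟨h1, h2, hγ2⟩
    · have := hwC0 C
      positivity
  refine h1.trans ?_
  rw [← mul_sum, ← mul_sum]
  have h2 := count_super (BG N) B (D ^ 2) (BG_card hN) x (2 * x) hx0 (by linarith) hxy C hCcn.1 hCB
  have h3 : (1 + 2 * x) ^ (D ^ 2 * C.card) ≤ 2 ^ C.card := by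
    rw [pow_mul]
    exact pow_le_pow_left₀ (by positivity) hy _
  have h4 : (1 / 4 : ℝ) ^ C.card * ∑ γ ∈ cnS (BG N) B (fun γ => C ⊆ γ ∧ C ≠ γ),
      x ^ (γ.card - C.card) ≤ 1 / 4 := by
    calc (1 / 4 : ℝ) ^ C.card * ∑ γ ∈ cnS (BG N) B (fun γ => C ⊆ γ ∧ C ≠ γ),
          x ^ (γ.card - C.card) ≤ (1 / 4 : ℝ) ^ C.card * 2 ^ C.card := by
          refine mul_le_mul_of_nonneg_left ?_ (by positivity)
          linarith
      _ = (1 / 2 : ℝ) ^ C.card := by rw [← mul_pow]; norm_num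
      _ ≤ (1 / 2 : ℝ) ^ 2 := pow_le_pow_of_le_one (by norm_num) (by norm_num) hk2
      _ = 1 / 4 := by norm_num
  calc wC C * ((1 / 4 : ℝ) ^ C.card * ∑ γ ∈ cnS (BG N) B (fun γ => C ⊆ γ ∧ C ≠ γ),
        x ^ (γ.card - C.card)) ≤ wC C * (1 / 4) := mul_le_mul_of_nonneg_left h4 (hwC0 C)
    _ = 1 / 4 * (Real.exp (-(ε * C.card)) * ck μ U C.card) := by
        rw [hwC]; ring

/-- M9a -/
theorem logZ_ge {N : V → Finset V} {B : Finset V} {D : ℕ} (hN : Bip N B D) (hU : Ker μ U κ η)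
    {σ : ℝ} (hn : Num D κ η σ) (hσ : 0 < σ) (hσD : σ * (10 ^ 5 * D ^ 10) ≤ 1) :
    1 / 2 * GG μ U N B (2 * σ * ((D:ℝ) ^ 2 + 1)) ≤ Real.log (ZZ μ U N B) := by
  classical
  have hD1 : (1:ℝ) ≤ D := by exact_mod_cast hn.hD
  have h10 : (1:ℝ) ≤ (D:ℝ) ^ 10 := one_le_pow₀ hD1
  have hs1 : σ ≤ 1 / 10 ^ 5 := by nlinarith
  have hgas := gas (BG N) (phi μ U N) (ZZ μ U N) B σ (D ^ 2) (by unfold phi; simp)
    (fun γ hγ β hβ hd h => phi_mul μ hN hU hγ hβ hd h)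
    (fun Λ _ => ZZ_eq μ N hU Λ)
    (fun Λ hΛ => (ZZ_ratio μ hN hU hn hΛ).1)
    (fun Λ hΛ => (ZZ_ratio μ hN hU hn hΛ).2) hσ.le hn.σ1 (BG_card hN)
    (fun γ => CycP N γ γ.card)
    (fun γ hγ h => (ck_nonneg μ _).trans (ck_le_phi μ hN hU hγ h))
  push_cast at hgas
  refine le_trans ?_ hgas
  have h1 : GG μ U N B (2 * σ * ((D:ℝ) ^ 2 + 1)) ≤
      ∑ γ ∈ cnS (BG N) B (fun γ => CycP N γ γ.card),
        Real.exp (-(2 * σ * ((D:ℝ) ^ 2 + 1) * γ.card)) * phi μ U N γ := by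
    unfold GG
    refine sum_le_sum fun γ hγ => ?_
    obtain ⟨h1, h2, h3⟩ := M9a.mem_cnS.1 hγ
    exact mul_le_mul_of_nonneg_left (ck_le_phi μ hN hU h1 h3) (Real.exp_pos _).le
  have h2 := M9a.noncyc_le μ hN hU hn hσ hσD
  have hG : 0 ≤ GG μ U N B (2 * σ * ((D:ℝ) ^ 2 + 1)) := by
    unfold GG
    exact sum_nonneg fun γ _ => mul_nonneg (Real.exp_pos _).le (ck_nonneg μ _)
  set A1 := ∑ γ ∈ cnS (BG N) B (fun γ => CycP N γ γ.card),
        Real.exp (-(2 * σ * ((D:ℝ) ^ 2 + 1) * γ.card)) * phi μ U N γ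
  set A2 := ∑ γ ∈ cnS (BG N) B (fun γ => ¬ CycP N γ γ.card),
      Real.exp (2 * σ * ((D:ℝ) ^ 2 + 1) * γ.card) * |phi μ U N γ|
  set g := GG μ U N B (2 * σ * ((D:ℝ) ^ 2 + 1))
  have h3 : (1 - 2 * σ) * g ≤ (1 - 2 * σ) * A1 :=
    mul_le_mul_of_nonneg_left h1 (by norm_num at hs1; linarith)
  have h4 : (1 + 2 * σ) * A2 ≤ (1 + 2 * σ) * (1 / 4 * g) :=
    mul_le_mul_of_nonneg_left h2 (by linarith)
  have h5 : 1 / 2 * g ≤ (1 - 2 * σ) * g - (1 + 2 * σ) * (1 / 4 * g) := by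
    norm_num at hs1
    nlinarith
  linarith

end M9a

end Vale.Agent.P050.Dense
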