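import Vale.Agent.P050.R2.H234.LogZ
import Vale.Agent.P050.R2.H234.GG2

set_option linter.all false

/-!
Dense targets, phase 2, module E: the lower bound of the logarithm of the partition function under
the condition `σ * D ^ 2 ≤ c`.
-/

open MeasureTheory Finset

namespace Vale.Agent.P050.Dense

open Vale.Agent.P050

section M9a2

variable {V : Type*} [Fintype V] [DecidableEq V] {Ω : Type*} [MeasurableSpace Ω]
variable (μ : Measure Ω) [IsProbabilityMeasure μ] {U : Sym2 Ω → ℝ} {κ η : ℝ}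

/-- the combined polymer bound -/
def PolyBd (μ : Measure Ω) (U : Sym2 Ω → ℝ) (N : V → Finset V) (B : Finset V) (σ : ℝ) : Prop :=
  ∀ γ ⊆ B, Cn (BG N) γ → Thick N γ → ¬ CycP N γ γ.card →
    ∃ C ⊆ γ, CycP N C C.card ∧ C ≠ γ ∧ C.card ≤ 4 * (γ.card - C.card) ∧
      |phi μ U N γ| ≤ 8 * (γ.card : ℝ) ^ 5 * 2 ^ C.card * σ ^ (γ.card - C.card) * phi μ U N C

lemma M9a2.pow5_le (j : ℕ) (hj : 1 ≤ j) : (j : ℝ) ^ 5 ≤ 32 ^ j := by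
  have h1 : (j : ℝ) ≤ 2 ^ j := by
    have := Nat.lt_two_pow_self (n := j)
    exact_mod_cast this.le
  calc (j : ℝ) ^ 5 ≤ (2 ^ j) ^ 5 := pow_le_pow_left₀ (Nat.cast_nonneg j) h1 5
    _ = 32 ^ j := by
        rw [← pow_mul, mul_comm, pow_mul]
        norm_num

/-- the weight of one additional vertex -/
noncomputable def M9a2.X (σ ε : ℝ) : ℝ := 10 ^ 8 * 35 * Real.exp (9 * ε) * σ

/-- `8 n^5 2^k 4^k ≤ (3.5 * 10^9)^j` for `n = k + j`, `k ≤ 4 j` -/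
lemma M9a2.num_le {k j : ℕ} (hj : 1 ≤ j) (hk : k ≤ 4 * j) :
    8 * ((k + j : ℕ) : ℝ) ^ 5 * 8 ^ k ≤ (10 ^ 8 * 35 : ℝ) ^ j := by
  have hjr : (1:ℝ) ≤ j := by exact_mod_cast hj
  have h1 : ((k + j : ℕ) : ℝ) ≤ 5 * j := by
    have : k + j ≤ 5 * j := by omega
    exact_mod_cast this
  have h2 : ((k + j : ℕ) : ℝ) ^ 5 ≤ (5 * (j:ℝ)) ^ 5 := pow_le_pow_left₀ (Nat.cast_nonneg _) h1 5
  have h3 : (8:ℝ) ^ k ≤ 8 ^ (4 * j) := pow_le_pow_right₀ (by norm_num) hk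
  have h4 := M9a2.pow5_le j hj
  have h25 : (8 * 5 ^ 5 : ℝ) ≤ (8 * 5 ^ 5 : ℝ) ^ j := by
    calc (8 * 5 ^ 5 : ℝ) = (8 * 5 ^ 5 : ℝ) ^ 1 := (pow_one _).symm
      _ ≤ (8 * 5 ^ 5 : ℝ) ^ j := pow_le_pow_right₀ (by norm_num) hj
  calc 8 * ((k + j : ℕ) : ℝ) ^ 5 * 8 ^ k ≤ 8 * (5 * (j:ℝ)) ^ 5 * 8 ^ (4 * j) := by
        gcongr
    _ = (8 * 5 ^ 5) * (j:ℝ) ^ 5 * (8 ^ 4) ^ j := by
        rw [pow_mul, mul_pow]
        ring
    _ ≤ (8 * 5 ^ 5 : ℝ) ^ j * 32 ^ j * (8 ^ 4) ^ j := by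
        gcongr
    _ = (8 * 5 ^ 5 * 32 * 8 ^ 4 : ℝ) ^ j := by
        rw [← mul_pow, ← mul_pow]
    _ ≤ (10 ^ 8 * 35 : ℝ) ^ j := by
        refine pow_le_pow_left₀ (by norm_num) (by norm_num) j

/-- one term -/
lemma M9a2.term_le {σ ε c f : ℝ} (hσ : 0 ≤ σ) (hε : 0 ≤ ε) (hc : 0 ≤ c)
    {k n : ℕ} (hkn : k < n) (hk4 : k ≤ 4 * (n - k))
    (hf : f ≤ 8 * (n:ℝ) ^ 5 * 2 ^ k * σ ^ (n - k) * c) :
    Real.exp (ε * n) * f ≤
      (Real.exp (-(ε * k)) * c) * ((1 / 4) ^ k * M9a2.X σ ε ^ (n - k)) := by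
  obtain ⟨j, rfl⟩ := Nat.exists_eq_add_of_le hkn.le
  have hj : 1 ≤ j := by omega
  rw [Nat.add_sub_cancel_left] at hf hk4 ⊢
  have hE : (0:ℝ) < Real.exp ε := Real.exp_pos _
  have e1 : Real.exp (ε * ((k + j : ℕ) : ℝ)) ≤ Real.exp (-(ε * k)) * Real.exp (9 * ε) ^ j := by
    rw [← Real.exp_nat_mul, ← Real.exp_add]
    apply Real.exp_le_exp.2
    have h1 : (k:ℝ) ≤ 4 * j := by exact_mod_cast hk4
    push_cast
    nlinarith
  have hnum := M9a2.num_le hj hk4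
  have h48 : (8:ℝ) ^ k = 2 ^ k * 4 ^ k := by rw [← mul_pow]; norm_num
  have h14 : (1 / 4 : ℝ) ^ k * 4 ^ k = 1 := by rw [← mul_pow]; norm_num
  have hσj : 0 ≤ σ ^ j := pow_nonneg hσ j
  calc Real.exp (ε * ((k + j : ℕ) : ℝ)) * f
      ≤ Real.exp (ε * ((k + j : ℕ) : ℝ)) *
          (8 * ((k + j : ℕ) : ℝ) ^ 5 * 2 ^ k * σ ^ j * c) :=
        mul_le_mul_of_nonneg_left hf (Real.exp_pos _).le
    _ ≤ (Real.exp (-(ε * k)) * Real.exp (9 * ε) ^ j) *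
          (8 * ((k + j : ℕ) : ℝ) ^ 5 * 2 ^ k * σ ^ j * c) := by
        refine mul_le_mul_of_nonneg_right e1 ?_
        positivity
    _ = (Real.exp (-(ε * k)) * c) * ((1 / 4) ^ k * ((8 * ((k + j : ℕ) : ℝ) ^ 5 * 8 ^ k) *
          Real.exp (9 * ε) ^ j * σ ^ j)) := by
        rw [h48]
        have : (1 / 4 : ℝ) ^ k * ((8 * ((k + j : ℕ) : ℝ) ^ 5 * (2 ^ k * 4 ^ k)) *
          Real.exp (9 * ε) ^ j * σ ^ j) = ((1 / 4 : ℝ) ^ k * 4 ^ k) * (8 * ((k + j : ℕ) : ℝ) ^ 5 * 2 ^ k *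
          Real.exp (9 * ε) ^ j * σ ^ j) := by ring
        rw [this, h14]
        ring
    _ ≤ (Real.exp (-(ε * k)) * c) * ((1 / 4) ^ k * ((10 ^ 8 * 35 : ℝ) ^ j *
          Real.exp (9 * ε) ^ j * σ ^ j)) := by
        have h7 : 0 ≤ Real.exp (-(ε * k)) * c := mul_nonneg (Real.exp_pos _).le hc
        refine mul_le_mul_of_nonneg_left (mul_le_mul_of_nonneg_left ?_ (by positivity)) h7
        refine mul_le_mul_of_nonneg_right (mul_le_mul_of_nonneg_right hnum ?_) hσj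
        positivity
    _ = (Real.exp (-(ε * k)) * c) * ((1 / 4) ^ k * M9a2.X σ ε ^ j) := by
        unfold M9a2.X
        rw [← mul_pow, ← mul_pow]

lemma M9a2.X_mul_le {D : ℕ} (hD : 1 ≤ D) {σ : ℝ} (hσ : 0 ≤ σ)
    (hσD : σ * (10 ^ 11 * (D:ℝ) ^ 2) ≤ 1) :
    M9a2.X σ (2 * σ * ((D:ℝ) ^ 2 + 1)) * (D:ℝ) ^ 2 ≤ 1 / 4 ∧ σ ≤ 1 / 10 ^ 5 := by
  have hD1 : (1:ℝ) ≤ D := by exact_mod_cast hD
  set ε := 2 * σ * ((D:ℝ) ^ 2 + 1) with hε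
  have h2 : (1:ℝ) ≤ (D:ℝ) ^ 2 := one_le_pow₀ hD1
  have hs2 : σ * (D:ℝ) ^ 2 ≤ 1 / 10 ^ 11 := by nlinarith
  have hs1 : σ ≤ 1 / 10 ^ 11 := by
    have : σ * 1 ≤ σ * (D:ℝ) ^ 2 := mul_le_mul_of_nonneg_left h2 hσ
    linarith
  have hε1 : 9 * ε ≤ 1 / 2 := by
    rw [hε]
    have : 2 * σ * ((D:ℝ) ^ 2 + 1) = 2 * (σ * (D:ℝ) ^ 2) + 2 * σ := by ring
    rw [this]
    norm_num at hs2 hs1 ⊢
    linarith
  have he : Real.exp (9 * ε) ≤ 2 := (Real.exp_le_exp.2 hε1).trans M9a.exp_half_le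
  have e : M9a2.X σ ε * (D:ℝ) ^ 2 = 10 ^ 8 * 35 * (σ * (D:ℝ) ^ 2) * Real.exp (9 * ε) := by
    unfold M9a2.X
    ring
  refine ⟨?_, hs1.trans (by norm_num)⟩
  rw [e]
  have hnn : 0 ≤ σ * (D:ℝ) ^ 2 := by positivity
  calc 10 ^ 8 * 35 * (σ * (D:ℝ) ^ 2) * Real.exp (9 * ε) ≤ 10 ^ 8 * 35 * (1 / 10 ^ 11) * 2 := by
        gcongr
    _ ≤ 1 / 4 := by norm_num

/-- the sets which are not cycles, compared with the cycles -/
lemma M9a2.noncyc_le {N : V → Finset V} {B : Finset V} {D : ℕ} (hN : Bip N B D)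
    (hU : Ker μ U κ η) {σ : ℝ} (hD : 1 ≤ D) (hσ : 0 ≤ σ)
    (hσD : σ * (10 ^ 11 * (D:ℝ) ^ 2) ≤ 1) (hP : PolyBd μ U N B σ) :
    ∑ γ ∈ cnS (BG N) B (fun γ => ¬ CycP N γ γ.card),
      Real.exp (2 * σ * ((D:ℝ) ^ 2 + 1) * γ.card) * |phi μ U N γ| ≤
      1 / 4 * GG2 μ U N B (2 * σ * ((D:ℝ) ^ 2 + 1)) := by
  classical
  set ε := 2 * σ * ((D:ℝ) ^ 2 + 1) with hε
  have hε0 : 0 ≤ ε := by positivity
  set x := M9a2.X σ ε with hx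
  have hx0 : 0 ≤ x := by
    rw [hx]
    unfold M9a2.X
    positivity
  have hxD : x * ((D ^ 2 : ℕ) : ℝ) ≤ 1 / 4 := by
    push_cast
    exact (M9a2.X_mul_le hD hσ hσD).1
  have hy : (1 + 2 * x) ^ (D ^ 2) ≤ 2 := M9a.one_add_pow_le hx0 hxD
  have hxy : x * (1 + 2 * x) ^ (D ^ 2) ≤ 2 * x := by nlinarith
  set PC : Finset V → Finset V → Prop := fun C γ => C ⊆ γ ∧ C ≠ γ with hPC
  have hphi0 : ∀ C ⊆ B, CycP N C C.card → 0 ≤ phi μ U N C := fun C hCB hC =>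
    (ck_nonneg μ _).trans (ck_le_phi μ hN hU hCB hC)
  -- each term is at most the sum over the cycles inside
  have hterm : ∀ γ ∈ cnS (BG N) B (fun γ => ¬ CycP N γ γ.card),
      Real.exp (ε * γ.card) * |phi μ U N γ| ≤
      ∑ C ∈ cnS (BG N) B (fun γ => CycP N γ γ.card),
        if PC C γ then (Real.exp (-(ε * C.card)) * phi μ U N C) *
          ((1 / 4) ^ C.card * x ^ (γ.card - C.card)) else 0 := by
    intro γ hγ
    obtain ⟨hγB, hcn, hncyc⟩ := M9a.mem_cnS.1 hγ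
    have hnn : ∀ C ∈ cnS (BG N) B (fun γ => CycP N γ γ.card),
        0 ≤ if PC C γ then (Real.exp (-(ε * C.card)) * phi μ U N C) *
          ((1 / 4) ^ C.card * x ^ (γ.card - C.card)) else 0 := by
      intro C hC
      obtain ⟨hCB, -, hCP⟩ := M9a.mem_cnS.1 hC
      split_ifs
      · have := hphi0 C hCB hCP
        positivity
      · exact le_rfl
    by_cases ht : Thick N γ
    · obtain ⟨C, hCγ, hC, hne, h4, hb⟩ := hP γ hγB hcn ht hncyc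
      have hCB : C ⊆ B := hCγ.trans hγB
      have hmem : C ∈ cnS (BG N) B (fun γ => CycP N γ γ.card) :=
        M9a.mem_cnS.2 ⟨hCB, CycP.cn hN hCB hC, hC⟩
      have hlt : C.card < γ.card := card_lt_card (hCγ.ssubset_of_ne hne)
      have h5 := M9a2.term_le hσ hε0 (hphi0 C hCB hC) hlt h4 hb
      refine le_trans ?_ (single_le_sum hnn hmem)
      rw [if_pos (show PC C γ from ⟨hCγ, hne⟩)]
      exact h5
    · rw [phi_eq_zero μ hN hU hγB ht, abs_zero, mul_zero]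
      exact sum_nonneg hnn
  refine (sum_le_sum hterm).trans ?_
  rw [sum_comm]
  unfold GG2
  rw [mul_sum]
  refine sum_le_sum fun C hC => ?_
  obtain ⟨hCB, hCcn, hCP⟩ := M9a.mem_cnS.1 hC
  have hk2 : 2 ≤ C.card := hCP.1
  have hw0 : 0 ≤ Real.exp (-(ε * C.card)) * phi μ U N C :=
    mul_nonneg (Real.exp_pos _).le (hphi0 C hCB hCP)
  have h1 : ∑ γ ∈ cnS (BG N) B (fun γ => ¬ CycP N γ γ.card),
      (if PC C γ then (Real.exp (-(ε * C.card)) * phi μ U N C) *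
        ((1 / 4) ^ C.card * x ^ (γ.card - C.card)) else 0) ≤
      ∑ γ ∈ cnS (BG N) B (fun γ => C ⊆ γ ∧ C ≠ γ),
        (Real.exp (-(ε * C.card)) * phi μ U N C) *
          ((1 / 4) ^ C.card * x ^ (γ.card - C.card)) := by
    rw [← sum_filter]
    refine sum_le_sum_of_subset_of_nonneg ?_ fun γ _ _ => ?_
    · intro γ hγ
      obtain ⟨hγ1, hγ2⟩ := mem_filter.1 hγ
      obtain ⟨h1, h2, -⟩ := M9a.mem_cnS.1 hγ1
      exact M9a.mem_cnS.2 ⟨h1, h2, hγ2⟩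
    · exact mul_nonneg hw0 (by positivity)
  refine h1.trans ?_
  rw [← mul_sum, ← mul_sum]
  have h2 := count_super (BG N) B (D ^ 2) (BG_card hN) x (2 * x) hx0 (by linarith) hxy C hCcn.1 hCB
  have h3 : (1 + 2 * x) ^ (D ^ 2 * C.card) ≤ 2 ^ C.card := by
    rw [pow_mul]
    exact pow_le_pow_left₀ (by positivity) hy _
  have h4 : (1 / 4 : ℝ) ^ C.card * ∑ γ ∈ cnS (BG N) B (fun γ => C ⊆ γ ∧ C ≠ γ),
      x ^ (γ.card - C.card) ≤ 1 / 4 := by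
    calc (1 / 4 : ℝ) ^ C.card * ∑ γ ∈ cnS (BG N) B (fun γ => C ⊆ γ ∧ C ≠ γ),
          x ^ (γ.card - C.card) ≤ (1 / 4 : ℝ) ^ C.card * 2 ^ C.card := by
          refine mul_le_mul_of_nonneg_left ?_ (by positivity)
          linarith
      _ = (1 / 2 : ℝ) ^ C.card := by rw [← mul_pow]; norm_num
      _ ≤ (1 / 2 : ℝ) ^ 2 := pow_le_pow_of_le_one (by norm_num) (by norm_num) hk2
      _ = 1 / 4 := by norm_num
  calc (Real.exp (-(ε * C.card)) * phi μ U N C) *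
        ((1 / 4 : ℝ) ^ C.card * ∑ γ ∈ cnS (BG N) B (fun γ => C ⊆ γ ∧ C ≠ γ),
        x ^ (γ.card - C.card)) ≤ (Real.exp (-(ε * C.card)) * phi μ U N C) * (1 / 4) :=
        mul_le_mul_of_nonneg_left h4 hw0
    _ = 1 / 4 * (Real.exp (-(ε * C.card)) * phi μ U N C) := by ring

/-- module E, from the combined polymer bound -/
theorem logZ_ge2_of {N : V → Finset V} {B : Finset V} {D : ℕ} (hN : Bip N B D) (hU : Ker μ U κ η)
    {σ : ℝ} (hn : Num D κ η σ) (hσ : 0 < σ) (hσD : σ * (10 ^ 11 * (D:ℝ) ^ 2) ≤ 1)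
    (hP : PolyBd μ U N B σ) :
    1 / 2 * GG2 μ U N B (2 * σ * ((D:ℝ) ^ 2 + 1)) ≤ Real.log (ZZ μ U N B) := by
  classical
  have hs1 : σ ≤ 1 / 10 ^ 5 := (M9a2.X_mul_le hn.hD hσ.le hσD).2
  have hgas := gas (BG N) (phi μ U N) (ZZ μ U N) B σ (D ^ 2) (by unfold phi; simp)
    (fun γ hγ β hβ hd h => phi_mul μ hN hU hγ hβ hd h)
    (fun Λ _ => ZZ_eq μ N hU Λ)
    (fun Λ hΛ => (ZZ_ratio μ hN hU hn hΛ).1)
    (fun Λ hΛ => (ZZ_ratio μ hN hU hn hΛ).2) hσ.le hn.σ1 (BG_card hN)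
    (fun γ => CycP N γ γ.card)
    (fun γ hγ h => (ck_nonneg μ _).trans (ck_le_phi μ hN hU hγ h))
  push_cast at hgas
  refine le_trans ?_ hgas
  have h2 := M9a2.noncyc_le μ hN hU hn.hD hσ.le hσD hP
  have hG : 0 ≤ GG2 μ U N B (2 * σ * ((D:ℝ) ^ 2 + 1)) := by
    unfold GG2
    refine sum_nonneg fun γ hγ => mul_nonneg (Real.exp_pos _).le ?_
    obtain ⟨h1, h2, h3⟩ := M9a.mem_cnS.1 hγ
    exact (ck_nonneg μ _).trans (ck_le_phi μ hN hU h1 h3)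
  set A2 := ∑ γ ∈ cnS (BG N) B (fun γ => ¬ CycP N γ γ.card),
      Real.exp (2 * σ * ((D:ℝ) ^ 2 + 1) * γ.card) * |phi μ U N γ|
  change 1 / 2 * GG2 μ U N B (2 * σ * ((D:ℝ) ^ 2 + 1)) ≤
    (1 - 2 * σ) * GG2 μ U N B (2 * σ * ((D:ℝ) ^ 2 + 1)) - (1 + 2 * σ) * A2
  set g := GG2 μ U N B (2 * σ * ((D:ℝ) ^ 2 + 1))
  have h4 : (1 + 2 * σ) * A2 ≤ (1 + 2 * σ) * (1 / 4 * g) :=
    mul_le_mul_of_nonneg_left h2 (by linarith)
  have h5 : 1 / 2 * g ≤ (1 - 2 * σ) * g - (1 + 2 * σ) * (1 / 4 * g) := by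
    norm_num at hs1
    nlinarith
  linarith

end M9a2

end Vale.Agent.P050.Dense
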