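import Vale.Agent.P050.R2.H234.LogZ2
import Vale.Agent.P050.R2.H322.CycExtra
import Vale.Agent.P050.R2.H322.TwoD
import Vale.Agent.P050.R2.H625.Cnt3

set_option linter.all false

/-!
Dense targets, phase 2: the combined polymer bound and module E.
-/

open MeasureTheory Finset

namespace Vale.Agent.P050.Dense

open Vale.Agent.P050

section M9a3

variable {V : Type*} [Fintype V] [DecidableEq V] {Ω : Type*} [MeasurableSpace Ω]
variable (μ : Measure Ω) [IsProbabilityMeasure μ] {U : Sym2 Ω → ℝ} {κ η : ℝ}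

/-- the combined polymer bound holds -/
theorem polyBd {N : V → Finset V} {B : Finset V} {D : ℕ} (hN : Bip N B D) (hU : Ker μ U κ η)
    {σ : ℝ} (hn : Num D κ η σ) (hσ : 0 < σ) : PolyBd μ U N B σ := by
  intro γ hγ hcn ht hncyc
  have hn1 : (1:ℝ) ≤ γ.card := by
    exact_mod_cast hcn.1.card_pos
  obtain ⟨k, C, hCγ, hC, hg⟩ := exists_cycP hN hγ (Thick.not_acyclic hN hγ hcn.1 ht)
  have hphi0 : ∀ C ⊆ B, ∀ k, CycP N C k → 0 ≤ phi μ U N C := fun C hCB k hC =>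
    (ck_nonneg μ _).trans (ck_le_phi μ hN hU hCB hC)
  rcases Nat.lt_or_ge 2 k with hk | hk
  · have hne : C ≠ γ := by
      rintro rfl
      apply hncyc
      rw [hC.2.1]
      exact hC
    have hx := cyc_extra hN hγ hcn ht hCγ hC hg hne
    have hCk : C.card = k := hC.2.1
    refine ⟨C, hCγ, hCk ▸ hC, hne, hCk ▸ hx, ?_⟩
    have hb := phi_bound3 μ hN hU hn hσ hγ hcn.1 hk hg
    rw [hCk]
    refine hb.trans ?_
    have hck := ck_le_phi μ hN hU (hCγ.trans hγ) hC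
    have h0 := hphi0 C (hCγ.trans hγ) k hC
    calc (γ.card : ℝ) ^ 5 * 2 ^ k * σ ^ (γ.card - k) * ck μ U k
        ≤ (γ.card : ℝ) ^ 5 * 2 ^ k * σ ^ (γ.card - k) * phi μ U N C :=
          mul_le_mul_of_nonneg_left hck (by positivity)
      _ = 1 * ((γ.card : ℝ) ^ 5 * 2 ^ k * σ ^ (γ.card - k) * phi μ U N C) := (one_mul _).symm
      _ ≤ 8 * ((γ.card : ℝ) ^ 5 * 2 ^ k * σ ^ (γ.card - k) * phi μ U N C) :=
          mul_le_mul_of_nonneg_right (by norm_num) (by positivity)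
      _ = _ := by ring
  · have hk2 : k = 2 := le_antisymm hk hC.1
    subst hk2
    obtain ⟨C', hC'γ, hC', hb⟩ := phi_two_cyc μ hN hU hn hγ hCγ hC
    have hCk : C'.card = 2 := hC'.2.1
    have hne : C' ≠ γ := by
      rintro rfl
      apply hncyc
      rw [hCk]
      exact hC'
    have hlt := card_lt_card (hC'γ.ssubset_of_ne hne)
    refine ⟨C', hC'γ, by rw [hCk]; exact hC', hne, by omega, ?_⟩
    rw [hCk]
    refine hb.trans ?_
    have h0 := hphi0 C' (hC'γ.trans hγ) 2 hC'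
    have h5 : (γ.card : ℝ) ^ 2 ≤ (γ.card : ℝ) ^ 5 := pow_le_pow_right₀ hn1 (by norm_num)
    have h6 : (γ.card : ℝ) ^ 2 ≤ (γ.card : ℝ) ^ 5 * 2 ^ 2 := by nlinarith
    have h7 : 0 ≤ σ ^ (γ.card - 2) * phi μ U N C' := by positivity
    nlinarith [mul_le_mul_of_nonneg_right h6 h7]

/-- **module E**: the lower bound of the logarithm of the partition function under the condition
`σ * D ^ 2 ≤ c` -/
theorem logZ_ge2 {N : V → Finset V} {B : Finset V} {D : ℕ} (hN : Bip N B D) (hU : Ker μ U κ η)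
    {σ : ℝ} (hn : Num D κ η σ) (hσ : 0 < σ) (hσD : σ * (10 ^ 11 * (D:ℝ) ^ 2) ≤ 1) :
    1 / 2 * GG2 μ U N B (2 * σ * ((D:ℝ) ^ 2 + 1)) ≤ Real.log (ZZ μ U N B) :=
  logZ_ge2_of μ hN hU hn hσ hσD (polyBd μ hN hU hn hσ)

end M9a3

end Vale.Agent.P050.Dense
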